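import Vale.Agent.P029W78.St

/-!
# P029: the isomorphism of graded Lie algebras and of the completions
-/

set_option linter.all false

namespace Vale.Agent.P029W78

open Vale.Agent.P029.Stmt Finset

theorem hat_equiv {A B : Type} [LieRing A] [LieAlgebra ℚ A] [LieRing B] [LieAlgebra ℚ B]
    (𝒜 : ℕ → Submodule ℚ A) (ℬ : ℕ → Submodule ℚ B) [SetLike.GradedBracket 𝒜]
    [SetLike.GradedBracket ℬ] (f : A →ₗ⁅ℚ⁆ B) (hf : Function.Injective f)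
    (h : ∀ n, (𝒜 n).map (f : A →ₗ[ℚ] B) = ℬ n) :
    ∃ Φ : Hat 𝒜 ≃ₗ⁅ℚ⁆ Hat ℬ, ∀ a n, (Φ a).part ℬ n = f (a.part 𝒜 n) := by
  let g : Hat 𝒜 →ₗ⁅ℚ⁆ Hat ℬ :=
    { toFun := fun a n => ⟨f (a.part 𝒜 n), h n ▸ ⟨_, (a n).2, rfl⟩⟩
      map_add' := fun a b => funext fun n => Subtype.ext (map_add f (a.part 𝒜 n) (b.part 𝒜 n))
      map_smul' := fun c a => funext fun n => Subtype.ext (map_smul f c (a.part 𝒜 n))
      map_lie' := fun {a b} => funext fun n => Subtype.ext (by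
        change f (conv (a.part 𝒜) (b.part 𝒜) n) =
          conv (fun i => f (a.part 𝒜 i)) (fun i => f (b.part 𝒜 i)) n
        simp only [conv, map_sum, LieHom.map_lie]) }
  refine ⟨LieEquiv.ofBijective g ⟨fun a b e => funext fun n => Subtype.ext
    (hf (congrArg (fun c : Hat ℬ => c.part ℬ n) e)), fun b => ?_⟩, fun a n => rfl⟩
  have : ∀ n, ∃ a ∈ 𝒜 n, f a = b.part ℬ n := fun n => by
    have hb : b.part ℬ n ∈ (𝒜 n).map (f : A →ₗ[ℚ] B) := (h n).symm ▸ (b n).2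
    exact hb
  choose a ha e using this
  exact ⟨fun n => ⟨a n, ha n⟩, funext fun n => Subtype.ext (e n)⟩

theorem incl_inj : Function.Injective W.incl := Subtype.val_injective

theorem indep_W : iSupIndep Wn := by
  have h : iSupIndep fun n : ℕ => wtPart (fun _ : Fin 2 => 1) n := by
    simp only [P029.Bridge.wtPart_eq]
    exact P029.Grade.wtPart_indep
  intro n
  rw [Submodule.disjoint_def]
  intro a h1 h2
  refine incl_inj ((Submodule.disjoint_def.1 (h n) _ h1 ?_).trans (map_zero _).symm)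
  have : (⨆ j, ⨆ (_ : j ≠ n), Wn j) ≤
      (⨆ j, ⨆ (_ : j ≠ n), wtPart (fun _ : Fin 2 => 1) j).comap W.incl :=
    iSup₂_le fun j hj => Submodule.comap_mono (le_iSup₂_of_le j hj le_rfl)
  exact this h2

theorem lift_iso {σ : ℕ → W} {f : F → L} (hf : IsIso f)
    (hσ : ∀ k, W.incl (σ k) = f (FreeLieAlgebra.of ℚ k)) :
    Function.Bijective (FreeLieAlgebra.lift ℚ σ) ∧
      ∀ n, (Fpart n).map (FreeLieAlgebra.lift ℚ σ : F →ₗ[ℚ] W) = Wn n := by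
  obtain ⟨h1, h2, h3, h4, h5, h6⟩ := hf
  let g : F →ₗ⁅ℚ⁆ W :=
    { toFun := fun a => ⟨f a, (h5 _).2 ⟨a, rfl⟩⟩
      map_add' := fun a b => Subtype.ext (h1 a b)
      map_smul' := fun c a => Subtype.ext (h2 c a)
      map_lie' := fun {a b} => Subtype.ext (isBr_eq (h3 a b)) }
  have e : FreeLieAlgebra.lift ℚ σ = g := FreeLieAlgebra.hom_ext fun k => by
    rw [FreeLieAlgebra.lift_of_apply]
    exact Subtype.ext (hσ k)
  rw [e]
  refine ⟨⟨fun a b h => h4 (congrArg Subtype.val h), fun ψ => ?_⟩, fun n => ?_⟩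
  · obtain ⟨a, ha⟩ := (h5 _).1 ψ.2
    exact ⟨a, Subtype.ext ha⟩
  · ext ψ
    constructor
    · rintro ⟨a, ha, rfl⟩
      exact ((h6 n _).2 ⟨a, ha, rfl⟩).2
    · intro h
      obtain ⟨a, ha, e⟩ := (h6 n ψ.1).1 ⟨ψ.2, h⟩
      exact ⟨a, ha, Subtype.ext e⟩

theorem top_F : (⨆ n, Fpart n) = ⊤ := by
  simp only [P029.Bridge.Fpart_eq]
  exact eq_top_iff.2 fun a _ => P029.Grade.mem_all a

theorem main :
    (∀ ψ : L, ∃! E : L → L, IsD ψ E) ∧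
    (Function.Injective W.incl ∧ (∀ ψ : L, IsW ψ ↔ ∃ a : W, W.incl a = ψ) ∧
      ∀ a b : W, W.incl ⁅a, b⁆ = ihara (W.incl a) (W.incl b)) ∧
    (DirectSum.IsInternal Wn ∧ DirectSum.IsInternal Fpart) ∧
    (∃ σ : ℕ → W, (∀ k, σ k ∈ Wn (2 * k + 3)) ∧
      Function.Bijective (FreeLieAlgebra.lift ℚ σ) ∧
      (∀ n, (Fpart n).map (FreeLieAlgebra.lift ℚ σ : F →ₗ[ℚ] W) = Wn n) ∧
      ∃ Φ : Hat Fpart ≃ₗ⁅ℚ⁆ Grt, ∀ a n,
        Hat.part Wn (Φ a) n = FreeLieAlgebra.lift ℚ σ (Hat.part Fpart a n)) ∧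
    ∀ n, FiniteDimensional ℚ (Wn n) ∧ FiniteDimensional ℚ (Fpart n) ∧
      Module.finrank ℚ (Wn n) = Module.finrank ℚ (Fpart n) := by
  obtain ⟨f, h0, hf⟩ := P029.Bridge.deligneDrinfeld
  obtain ⟨σ, hσ⟩ : ∃ σ : ℕ → W, ∀ k, W.incl (σ k) = f (FreeLieAlgebra.of ℚ k) :=
    ⟨fun k => ⟨_, (h0 k).1⟩, fun _ => rfl⟩
  obtain ⟨hb, hm⟩ := lift_iso hf hσ
  have hk : ∀ k, σ k ∈ Wn (2 * k + 3) := fun k => by
    change W.incl (σ k) ∈ wtPart (fun _ : Fin 2 => 1) (2 * k + 3)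
    rw [hσ]
    exact (h0 k).2
  set g : F →ₗ⁅ℚ⁆ W := FreeLieAlgebra.lift ℚ σ with hg
  have hW : (⨆ n, Wn n) = ⊤ := by
    simp only [← hm]
    rw [← Submodule.map_iSup, top_F, Submodule.map_top, LinearMap.range_eq_top]
    exact hb.2
  have hF : iSupIndep Fpart := by
    intro n
    rw [Submodule.disjoint_def]
    intro a h1 h2
    refine hb.1 ((Submodule.disjoint_def.1 (indep_W n) _ (hm n ▸ ⟨a, h1, rfl⟩) ?_).trans
      (map_zero _).symm)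
    have : (⨆ j, ⨆ (_ : j ≠ n), Fpart j) ≤ (⨆ j, ⨆ (_ : j ≠ n), Wn j).comap (g : F →ₗ[ℚ] W) :=
      iSup₂_le fun j hj => Submodule.map_le_iff_le_comap.1
        ((hm j).le.trans (le_iSup₂_of_le j hj le_rfl))
    exact this h2
  refine ⟨exu, ⟨incl_inj, fun ψ => ⟨fun h => ⟨⟨ψ, h⟩, rfl⟩, ?_⟩, fun _ _ => rfl⟩,
    ⟨(DirectSum.isInternal_submodule_iff_iSupIndep_and_iSup_eq_top _).2 ⟨indep_W, hW⟩,
      (DirectSum.isInternal_submodule_iff_iSupIndep_and_iSup_eq_top _).2 ⟨hF, top_F⟩⟩,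
    ⟨σ, hk, hb, hm, hat_equiv Fpart Wn g hb.1 hm⟩, fun n => ?_⟩
  · rintro ⟨a, rfl⟩
    exact a.2
  · have h1 : FiniteDimensional ℚ (Fpart n) := by
      rw [P029.Bridge.Fpart_eq]
      exact (P029.finrank_F n).1
    rw [← hm n]
    exact ⟨inferInstance, h1, (Submodule.equivMapOfInjective _ hb.1 _).finrank_eq.symm⟩

end Vale.Agent.P029W78
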