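import Vale.Agent.P029W78.St0
import Vale.Agent.P029.H461.Main

/-!
# P029: the facts needed to see `W` and the completions as Lie algebras
-/

set_option linter.all false

namespace Vale.Agent.P029W78

open Vale.Agent.P029.Stmt Finset

section conv

variable {A : Type} [LieRing A]

theorem conv_add_left (a b c : ℕ → A) (n : ℕ) :
    conv (fun i => a i + b i) c n = conv a c n + conv b c n := by
  simp only [conv, add_lie, sum_add_distrib]

theorem conv_add_right (a b c : ℕ → A) (n : ℕ) :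
    conv a (fun i => b i + c i) n = conv a b n + conv a c n := by
  simp only [conv, lie_add, sum_add_distrib]

theorem tri_assoc {M : Type} [AddCommMonoid M] (f : ℕ → ℕ → ℕ → M) (n : ℕ) :
    ∑ p ∈ HasAntidiagonal.antidiagonal n, ∑ q ∈ HasAntidiagonal.antidiagonal p.2, f p.1 q.1 q.2 =
      ∑ p ∈ HasAntidiagonal.antidiagonal n, ∑ q ∈ HasAntidiagonal.antidiagonal p.1, f q.1 q.2 p.2 := by
  rw [sum_sigma', sum_sigma']
  refine sum_nbij' (fun x => ⟨(x.1.1 + x.2.1, x.2.2), (x.1.1, x.2.1)⟩)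
    (fun x => ⟨(x.2.1, x.2.2 + x.1.2), (x.2.2, x.1.2)⟩) ?_ ?_ ?_ ?_ ?_
  · rintro ⟨⟨i, j⟩, k, l⟩ h
    simp only [mem_sigma, HasAntidiagonal.mem_antidiagonal, and_true] at h ⊢
    omega
  · rintro ⟨⟨i, j⟩, k, l⟩ h
    simp only [mem_sigma, HasAntidiagonal.mem_antidiagonal, and_true] at h ⊢
    omega
  · rintro ⟨⟨i, j⟩, k, l⟩ h
    simp only [mem_sigma, HasAntidiagonal.mem_antidiagonal] at h
    simp [h.2]
  · rintro ⟨⟨i, j⟩, k, l⟩ h
    simp only [mem_sigma, HasAntidiagonal.mem_antidiagonal] at h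
    simp [h.2]
  · intro x _
    rfl

theorem conv_leibniz (a b c : ℕ → A) (n : ℕ) :
    conv a (conv b c) n = conv (conv a b) c n + conv b (conv a c) n := by
  have h1 : conv a (conv b c) n =
      ∑ p ∈ HasAntidiagonal.antidiagonal n, ∑ q ∈ HasAntidiagonal.antidiagonal p.1, ⁅a q.1, ⁅b q.2, c p.2⁆⁆ := by
    simp only [conv, lie_sum]
    exact tri_assoc (fun i j k => ⁅a i, ⁅b j, c k⁆⁆) n
  have h2 : conv b (conv a c) n =
      ∑ p ∈ HasAntidiagonal.antidiagonal n, ∑ q ∈ HasAntidiagonal.antidiagonal p.1, ⁅b q.2, ⁅a q.1, c p.2⁆⁆ := by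
    simp only [conv, lie_sum]
    refine (tri_assoc (fun i j k => ⁅b i, ⁅a j, c k⁆⁆) n).trans (sum_congr rfl fun p _ => ?_)
    exact (Nat.sum_antidiagonal_swap (f := fun q => ⁅b q.1, ⁅a q.2, c p.2⁆⁆)).symm
  rw [h1, h2]
  simp only [conv, sum_lie, ← sum_add_distrib]
  exact sum_congr rfl fun p _ => sum_congr rfl fun q _ => leibniz_lie _ _ _

variable [LieAlgebra ℚ A]

theorem conv_self (a : ℕ → A) (n : ℕ) : conv a a n = 0 := by
  have h : conv a a n = -conv a a n := by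
    conv_lhs => rw [conv, ← Nat.sum_antidiagonal_swap]
    rw [conv, ← sum_neg_distrib]
    exact sum_congr rfl fun p _ => (lie_skew _ _).symm
  have h2 : (2 : ℚ) • conv a a n = 0 := by
    rw [two_smul]
    exact add_eq_zero_iff_eq_neg.2 h
  exact (smul_eq_zero.1 h2).resolve_left two_ne_zero

theorem conv_smul (t : ℚ) (a b : ℕ → A) (n : ℕ) :
    conv a (fun i => t • b i) n = t • conv a b n := by
  simp only [conv, lie_smul, smul_sum]

theorem conv_mem (𝒜 : ℕ → Submodule ℚ A) [SetLike.GradedBracket 𝒜] (a b : ∀ n, 𝒜 n) (n : ℕ) :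
    conv (fun i => (a i : A)) (fun i => (b i : A)) n ∈ 𝒜 n :=
  sum_mem fun p hp => HasAntidiagonal.mem_antidiagonal.1 hp ▸ SetLike.GradedBracket.bracket_mem (a p.1).2 (b p.2).2

end conv

open Vale.Agent.P029 (IhLie.dd IhLie.ib)

theorem exu (ψ : L) : ∃! E : L → L, IsD ψ E := by
  refine ⟨IhLie.dd ψ, P029.Bridge.isD_of (P029.IhLie.dd_spec ψ), fun E hE => ?_⟩
  obtain ⟨E', h1, h2⟩ := P029.H461.isD_to hE
  funext a
  rw [← h2, P029.IhLie.isIharaDer_unique h1 (P029.IhLie.dd_spec ψ)]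

theorem D_spec (ψ : L) : IsD ψ (D ψ) := Classical.epsilon_spec (exu ψ).exists

theorem D_eq (ψ : L) : D ψ = IhLie.dd ψ :=
  (exu ψ).unique (D_spec ψ) (P029.Bridge.isD_of (P029.IhLie.dd_spec ψ))

theorem ihara_eq (ψ φ : L) : ihara ψ φ = IhLie.ib ψ φ := by
  rw [ihara, D_eq, D_eq]
  rfl

theorem isBr_eq {ψ φ χ : L} (h : IsBr ψ φ χ) : χ = ihara ψ φ := by
  rw [ihara_eq]
  exact P029.ihara_unique (P029.H461.isBr_iff.1 h) (P029.IhLie.ib_spec _ _)

theorem add_ihara (a b c : L) : ihara (a + b) c = ihara a c + ihara b c := by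
  simp only [ihara_eq, P029.IhLie.add_ib]

theorem ihara_add (a b c : L) : ihara a (b + c) = ihara a b + ihara a c := by
  simp only [ihara_eq, P029.IhLie.ib_add]

theorem ihara_self (a : L) : ihara a a = 0 := by rw [ihara_eq, P029.IhLie.ib_self]

theorem ihara_leibniz (a b c : L) :
    ihara a (ihara b c) = ihara (ihara a b) c + ihara b (ihara a c) := by
  simp only [ihara_eq]
  exact P029.IhLie.ib_jacobi a b c

theorem ihara_smul (t : ℚ) (a b : L) : ihara a (t • b) = t • ihara a b := by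
  simp only [ihara_eq, P029.IhLie.ib_smul]

theorem isW_zero : IsW 0 := by simp [IsW, sL, sT]

theorem isW_add {a b : L} (ha : IsW a) (hb : IsW b) : IsW (a + b) := by
  obtain ⟨f, -, h1, -, -, -, h5, -⟩ := P029.Bridge.deligneDrinfeld
  obtain ⟨u, rfl⟩ := (h5 a).1 ha
  obtain ⟨v, rfl⟩ := (h5 b).1 hb
  exact (h5 _).2 ⟨u + v, h1 u v⟩

theorem isW_smul (c : ℚ) {a : L} (ha : IsW a) : IsW (c • a) := by
  obtain ⟨f, -, -, h2, -, -, h5, -⟩ := P029.Bridge.deligneDrinfeld
  obtain ⟨u, rfl⟩ := (h5 a).1 ha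
  exact (h5 _).2 ⟨c • u, h2 c u⟩

theorem isW_ihara {a b : L} (ha : IsW a) (hb : IsW b) : IsW (ihara a b) := by
  obtain ⟨f, -, -, -, h3, -, h5, -⟩ := P029.Bridge.deligneDrinfeld
  obtain ⟨u, rfl⟩ := (h5 a).1 ha
  obtain ⟨v, rfl⟩ := (h5 b).1 hb
  exact (h5 _).2 ⟨⁅u, v⁆, isBr_eq (h3 u v)⟩

theorem ihara_wt {m n : ℕ} {a b : L} (ha : IsWn m a) (hb : IsWn n b) :
    ihara a b ∈ wtPart (fun _ => 1) (m + n) :=
  ((P029.Bridge.isWn_iff _ _).2 (P029.wClosed m n a b _ ((P029.Bridge.isWn_iff _ _).1 ha)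
    ((P029.Bridge.isWn_iff _ _).1 hb) (ihara_eq a b ▸ P029.IhLie.ib_spec a b))).2

theorem wtPart_lie {X : Type} (w : X → ℕ) {m n : ℕ} {a b : FreeLieAlgebra ℚ X}
    (ha : a ∈ wtPart w m) (hb : b ∈ wtPart w n) : ⁅a, b⁆ ∈ wtPart w (m + n) := by
  induction ha using Submodule.span_induction with
  | mem a ha =>
    induction hb using Submodule.span_induction with
    | mem b hb => exact Submodule.subset_span (IsMon.lie ha hb)
    | zero => simp
    | add b c _ _ h1 h2 => rw [lie_add]; exact add_mem h1 h2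
    | smul t b _ h => rw [lie_smul]; exact Submodule.smul_mem _ _ h
  | zero => simp
  | add a c _ _ h1 h2 => rw [add_lie]; exact add_mem h1 h2
  | smul t a _ h => rw [smul_lie]; exact Submodule.smul_mem _ _ h

end Vale.Agent.P029W78
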