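import Vale.Agent.P029W78.Pre

/-!
# P029: the Lie algebras `(W, {,})`, `𝔤𝔯𝔱₁` and the completion of `F`
-/

noncomputable section

namespace Vale.Agent.P029W78

open Vale.Agent.P029.Stmt

/-- The subspace of `L` defined by the three equations. -/
def Wsub : Submodule ℚ L where
  carrier := {ψ | IsW ψ}
  add_mem' := isW_add
  zero_mem' := isW_zero
  smul_mem' c _ h := isW_smul c h

/-- The space `W`. -/
def W : Type := Wsub

instance : AddCommGroup W := Wsub.addCommGroup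

instance : Module ℚ W := Wsub.module

/-- The inclusion of `W` in `L`. -/
def W.incl : W →ₗ[ℚ] L := Wsub.subtype

/-- The Ihara bracket on `W`. -/
instance : Bracket W W := ⟨fun a b => ⟨ihara a.1 b.1, isW_ihara a.2 b.2⟩⟩

theorem W.add_lie (a b c : W) : ⁅a + b, c⁆ = ⁅a, c⁆ + ⁅b, c⁆ :=
  Subtype.ext (add_ihara a.1 b.1 c.1)

theorem W.lie_add (a b c : W) : ⁅a, b + c⁆ = ⁅a, b⁆ + ⁅a, c⁆ :=
  Subtype.ext (ihara_add a.1 b.1 c.1)

theorem W.lie_self (a : W) : ⁅a, a⁆ = 0 := Subtype.ext (ihara_self a.1)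

theorem W.leibniz (a b c : W) : ⁅a, ⁅b, c⁆⁆ = ⁅⁅a, b⁆, c⁆ + ⁅b, ⁅a, c⁆⁆ :=
  Subtype.ext (ihara_leibniz a.1 b.1 c.1)

/-- `W` is a Lie algebra for the Ihara bracket. -/
instance : LieRing W where
  add_lie := W.add_lie
  lie_add := W.lie_add
  lie_self := W.lie_self
  leibniz_lie := W.leibniz

theorem W.lie_smul (t : ℚ) (a b : W) : ⁅a, t • b⁆ = t • ⁅a, b⁆ :=
  Subtype.ext (ihara_smul t a.1 b.1)

instance : LieAlgebra ℚ W where
  lie_smul := W.lie_smul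

/-- The weight `n` part `W_n` of `W`. -/
def Wn (n : ℕ) : Submodule ℚ W := (wtPart (fun _ => 1) n).comap W.incl

instance : SetLike.GradedBracket Wn where
  bracket_mem _ _ a b ha hb := ihara_wt ⟨a.2, ha⟩ ⟨b.2, hb⟩

instance : SetLike.GradedBracket Fpart where
  bracket_mem _ _ _ _ ha hb := wtPart_lie _ ha hb

variable {A : Type} [LieRing A] [LieAlgebra ℚ A] (𝒜 : ℕ → Submodule ℚ A)

/-- The weight completion `∏ A_n` of a graded Lie algebra. -/
def Hat : Type := ∀ n, 𝒜 n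

instance : AddCommGroup (Hat 𝒜) := (Pi.addCommGroup : AddCommGroup (∀ n, 𝒜 n))

instance : Module ℚ (Hat 𝒜) := (Pi.module _ _ _ : Module ℚ (∀ n, 𝒜 n))

/-- The component of weight `n`. -/
def Hat.part (a : Hat 𝒜) (n : ℕ) : A := (a n).1

variable [SetLike.GradedBracket 𝒜]

/-- The bracket of the completion: `[a, b]_n = ∑_{i + j = n} [a_i, b_j]`. -/
instance : Bracket (Hat 𝒜) (Hat 𝒜) := ⟨fun a b n => ⟨conv a.part b.part n, conv_mem 𝒜 a b n⟩⟩

theorem Hat.add_lie (a b c : Hat 𝒜) : ⁅a + b, c⁆ = ⁅a, c⁆ + ⁅b, c⁆ :=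
  funext fun n => Subtype.ext (conv_add_left a.part b.part c.part n)

theorem Hat.lie_add (a b c : Hat 𝒜) : ⁅a, b + c⁆ = ⁅a, b⁆ + ⁅a, c⁆ :=
  funext fun n => Subtype.ext (conv_add_right a.part b.part c.part n)

theorem Hat.lie_self (a : Hat 𝒜) : ⁅a, a⁆ = 0 := funext fun n => Subtype.ext (conv_self a.part n)

theorem Hat.leibniz (a b c : Hat 𝒜) : ⁅a, ⁅b, c⁆⁆ = ⁅⁅a, b⁆, c⁆ + ⁅b, ⁅a, c⁆⁆ :=
  funext fun n => Subtype.ext (conv_leibniz a.part b.part c.part n)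

instance : LieRing (Hat 𝒜) where
  add_lie := Hat.add_lie 𝒜
  lie_add := Hat.lie_add 𝒜
  lie_self := Hat.lie_self 𝒜
  leibniz_lie := Hat.leibniz 𝒜

theorem Hat.lie_smul (t : ℚ) (a b : Hat 𝒜) : ⁅a, t • b⁆ = t • ⁅a, b⁆ :=
  funext fun n => Subtype.ext (conv_smul t a.part b.part n)

instance : LieAlgebra ℚ (Hat 𝒜) where
  lie_smul := Hat.lie_smul 𝒜

/-- The rational Grothendieck-Teichmuller Lie algebra `𝔤𝔯𝔱₁`. -/
abbrev Grt : Type := Hat Wn

end Vale.Agent.P029W78
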