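import Vale.Agent.P029.Stmt
import Mathlib.Algebra.Lie.Graded

/-!
# P029: the Ihara bracket as a function, the bracket of sequences
-/

noncomputable section

namespace Vale.Agent.P029W78

open Vale.Agent.P029.Stmt

/-- The derivation `D_ψ` of `L` with `D_ψ x = 0`, `D_ψ y = [y, ψ]`. -/
def D (ψ : L) : L → L := Classical.epsilon (IsD ψ)

/-- The Ihara bracket `{ψ, φ} = D_ψ φ - D_φ ψ + [ψ, φ]`. -/
def ihara (ψ φ : L) : L := D ψ φ - D φ ψ + ⁅ψ, φ⁆

/-- The component of weight `n` of the bracket of `∑ a_i` and `∑ b_j`. -/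
def conv {A : Type} [LieRing A] (a b : ℕ → A) (n : ℕ) : A :=
  ∑ p ∈ Finset.HasAntidiagonal.antidiagonal n, ⁅a p.1, b p.2⁆

end Vale.Agent.P029W78
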